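import Mathlib

namespace Vale.Agent.Lib.P012

/-- Passage from the tower parameter `L` to iterated natural logarithms. -/
theorem convert_bound : ∃ C : ℝ, ∃ b₀ : ℕ, ∀ b : ℕ, b₀ ≤ b → ∃ L : ℕ, 4 ≤ L ∧
    b ≤ 2 ^ (2 ^ (2 ^ L)) ∧
    ((6000 * (2 ^ L * L) : ℕ) : ℝ) ≤
      C * Real.log (Real.log b) * Real.log (Real.log (Real.log b)) := by
  refine ⟨384000, 2 ^ (2 ^ (2 ^ 3)) + 1, fun b hb => ?_⟩
  have hex : ∃ L : ℕ, b ≤ 2 ^ (2 ^ (2 ^ L)) := by
    refine ⟨b, ?_⟩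
    have h1 : b < 2 ^ b := Nat.lt_two_pow_self
    have h2 : 2 ^ b < 2 ^ (2 ^ b) := Nat.lt_two_pow_self
    have h3 : 2 ^ (2 ^ b) < 2 ^ (2 ^ (2 ^ b)) := Nat.lt_two_pow_self
    omega
  classical
  set L := Nat.find hex with hL
  have hL1 : b ≤ 2 ^ (2 ^ (2 ^ L)) := Nat.find_spec hex
  have mono : ∀ i j : ℕ, i ≤ j → 2 ^ (2 ^ (2 ^ i)) ≤ 2 ^ (2 ^ (2 ^ j)) := by
    intro i j hij
    exact Nat.pow_le_pow_right (by norm_num)
      (Nat.pow_le_pow_right (by norm_num) (Nat.pow_le_pow_right (by norm_num) hij))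
  have hL4 : 4 ≤ L := by
    by_contra hcon
    push Not at hcon
    have h1 := mono L 3 (by omega)
    omega
  obtain ⟨K, hK⟩ : ∃ K, L = K + 1 := ⟨L - 1, by omega⟩
  have hK3 : 3 ≤ K := by omega
  have hlow : 2 ^ (2 ^ (2 ^ K)) < b := by
    have := Nat.find_min hex (m := K) (by omega)
    omega
  refine ⟨L, hL4, hL1, ?_⟩
  have hlog2 : (1 : ℝ) / 2 ≤ Real.log 2 := by
    have := Real.log_two_gt_d9
    linarith
  have hlog2pos : 0 < Real.log 2 := by linarith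
  have hKR : (3 : ℝ) ≤ (K : ℝ) := by exact_mod_cast hK3
  have hbR : (2 : ℝ) ^ (2 ^ (2 ^ K) : ℕ) ≤ (b : ℝ) := by exact_mod_cast hlow.le
  set P : ℝ := (2 : ℝ) ^ K with hP
  have hP8 : (8 : ℝ) ≤ P := by
    calc (8 : ℝ) = 2 ^ 3 := by norm_num
      _ ≤ 2 ^ K := pow_le_pow_right₀ (by norm_num) hK3
  set Q : ℝ := (2 : ℝ) ^ (2 ^ K : ℕ) with hQ
  have hQpos : 0 < Q := by positivity
  -- step 1
  have s1 : Q / 2 ≤ Real.log b := by
    have h1 : Real.log ((2 : ℝ) ^ (2 ^ (2 ^ K) : ℕ)) ≤ Real.log b :=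
      Real.log_le_log (by positivity) hbR
    rw [Real.log_pow] at h1
    have h2 : ((2 ^ (2 ^ K) : ℕ) : ℝ) = Q := by
      rw [hQ]
      push_cast
      rfl
    rw [h2] at h1
    have h3 : Q * (1 / 2) ≤ Q * Real.log 2 := mul_le_mul_of_nonneg_left hlog2 hQpos.le
    linarith
  -- step 2
  have s2 : P / 4 ≤ Real.log (Real.log b) := by
    have h1 : Real.log (Q / 2) ≤ Real.log (Real.log b) := Real.log_le_log (by positivity) s1
    rw [Real.log_div hQpos.ne' (by norm_num), hQ, Real.log_pow] at h1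
    have h2 : ((2 ^ K : ℕ) : ℝ) = P := by
      rw [hP]
      push_cast
      rfl
    rw [h2] at h1
    have h3 : (P - 1) * (1 / 2) ≤ (P - 1) * Real.log 2 :=
      mul_le_mul_of_nonneg_left hlog2 (by linarith)
    nlinarith
  -- step 3
  have s3 : ((K : ℝ) - 2) / 2 ≤ Real.log (Real.log (Real.log b)) := by
    have h1 : Real.log (P / 4) ≤ Real.log (Real.log (Real.log b)) :=
      Real.log_le_log (by positivity) s2
    have h4 : Real.log (4 : ℝ) = 2 * Real.log 2 := by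
      rw [show (4 : ℝ) = 2 ^ 2 by norm_num, Real.log_pow]
      norm_num
    rw [Real.log_div (by positivity) (by norm_num), hP, Real.log_pow, h4] at h1
    have h3 : ((K : ℝ) - 2) * (1 / 2) ≤ ((K : ℝ) - 2) * Real.log 2 :=
      mul_le_mul_of_nonneg_left hlog2 (by linarith)
    nlinarith
  have hcast : ((6000 * (2 ^ L * L) : ℕ) : ℝ) = 6000 * (2 * P * ((K : ℝ) + 1)) := by
    rw [hK, hP]
    push_cast
    ring
  rw [hcast]
  have hPpos : 0 < P := by linarith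
  have t1 : (P / 4) * (((K : ℝ) - 2) / 2)
      ≤ Real.log (Real.log b) * Real.log (Real.log (Real.log b)) :=
    mul_le_mul s2 s3 (by linarith) (le_trans (by positivity) s2)
  have t2 : 6000 * (2 * P * ((K : ℝ) + 1)) ≤ 384000 * ((P / 4) * (((K : ℝ) - 2) / 2)) := by
    have : 0 ≤ P * ((K : ℝ) - 3) := mul_nonneg hPpos.le (by linarith)
    nlinarith
  calc 6000 * (2 * P * ((K : ℝ) + 1)) ≤ 384000 * ((P / 4) * (((K : ℝ) - 2) / 2)) := t2
    _ ≤ 384000 * (Real.log (Real.log b) * Real.log (Real.log (Real.log b))) :=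
        mul_le_mul_of_nonneg_left t1 (by norm_num)
    _ = 384000 * Real.log (Real.log b) * Real.log (Real.log (Real.log b)) := by ring

end Vale.Agent.Lib.P012
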