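import Mathlib

namespace Vale.Agent.Lib.P012

open Finset

/-- Cauchy-Schwarz in collision form. -/
theorem card_sq_le_image_mul_collisions {α β : Type*} [DecidableEq α] [DecidableEq β]
    (f : α → β) (s : Finset α) :
    s.card ^ 2 ≤ (s.image f).card * ((s ×ˢ s).filter (fun u => f u.1 = f u.2)).card := by
  have h1 : s.card = ∑ b ∈ s.image f, (s.filter (fun a => f a = b)).card :=
    card_eq_sum_card_image f s
  have h2 : ((s ×ˢ s).filter (fun u => f u.1 = f u.2)).card
      = ∑ b ∈ s.image f, (s.filter (fun a => f a = b)).card ^ 2 := by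
    rw [card_eq_sum_card_fiberwise (f := fun u : α × α => f u.1) (t := s.image f)]
    · apply sum_congr rfl
      intro b _
      rw [sq, ← card_product]
      congr 1
      ext ⟨x, y⟩
      simp only [mem_filter, mem_product]
      constructor
      · rintro ⟨⟨⟨hx, hy⟩, hxy⟩, hb⟩
        exact ⟨⟨hx, hb⟩, hy, by rw [← hxy]; exact hb⟩
      · rintro ⟨⟨hx, hb⟩, hy, hb'⟩
        exact ⟨⟨⟨hx, hy⟩, by rw [hb, hb']⟩, hb⟩
    · intro u hu
      have hu' := (mem_filter.1 hu).1
      exact mem_image_of_mem _ (mem_product.1 hu').1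
  rw [h2]
  calc s.card ^ 2 = (∑ b ∈ s.image f, (s.filter (fun a => f a = b)).card) ^ 2 := by rw [← h1]
    _ ≤ _ := sq_sum_le_card_mul_sum_sq

/-- Sum-product growth with a small multiplier. -/
theorem growth {p : ℕ} [Fact p.Prime] (X : Finset (ZMod p)) (Y : ℕ) (hY1 : 1 ≤ Y)
    (hY : Y ≤ p - 1) :
    ∃ ξ : ℕ, 1 ≤ ξ ∧ ξ ≤ Y ∧ X.card ^ 2 * Y ≤
      ((X ×ˢ X).image (fun u => u.1 + (ξ : ZMod p) * u.2)).card * (Y + X.card ^ 2) := by
  classical
  have hp : 0 < p := (Fact.out : p.Prime).pos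
  set P := X ×ˢ X with hP
  set c := X.card with hc
  have hPc : P.card = c ^ 2 := by rw [hP, card_product, sq]
  let f : ℕ → ZMod p × ZMod p → ZMod p := fun ξ u => u.1 + (ξ : ZMod p) * u.2
  let E : ℕ → ℕ := fun ξ => ((P ×ˢ P).filter (fun w => f ξ w.1 = f ξ w.2)).card
  have hsum : ∑ ξ ∈ Icc 1 Y, E ξ ≤ Y * c ^ 2 + c ^ 4 := by
    have e1 : ∑ ξ ∈ Icc 1 Y, E ξ
        = ∑ w ∈ P ×ˢ P, ((Icc 1 Y).filter (fun ξ => f ξ w.1 = f ξ w.2)).card := by
      simp only [E, card_filter]
      rw [sum_comm]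
    rw [e1]
    have e2 : ∀ w ∈ P ×ˢ P, ((Icc 1 Y).filter (fun ξ => f ξ w.1 = f ξ w.2)).card
        ≤ (if w.1 = w.2 then Y else 0) + 1 := by
      intro w _
      by_cases hw : w.1 = w.2
      · rw [if_pos hw]
        calc _ ≤ (Icc 1 Y).card := card_filter_le _ _
          _ = Y := by simp
          _ ≤ Y + 1 := by omega
      · rw [if_neg hw, zero_add, card_le_one]
        intro a ha b hb
        rw [mem_filter, mem_Icc] at ha hb
        obtain ⟨⟨ha1, ha2⟩, ha3⟩ := ha
        obtain ⟨⟨hb1, hb2⟩, hb3⟩ := hb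
        simp only [f] at ha3 hb3
        have hz : ((a : ZMod p) - b) * (w.1.2 - w.2.2) = 0 := by
          linear_combination ha3 - hb3
        rcases mul_eq_zero.1 hz with h | h
        · have hab : (a : ZMod p) = b := sub_eq_zero.1 h
          have := (ZMod.natCast_eq_natCast_iff' a b p).1 hab
          rwa [Nat.mod_eq_of_lt (by omega), Nat.mod_eq_of_lt (by omega)] at this
        · exfalso
          apply hw
          have h2 : w.1.2 = w.2.2 := sub_eq_zero.1 h
          have h1 : w.1.1 = w.2.1 := by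
            rw [h2] at ha3
            exact add_right_cancel ha3
          exact Prod.ext h1 h2
    calc _ ≤ ∑ w ∈ P ×ˢ P, ((if w.1 = w.2 then Y else 0) + 1) := sum_le_sum e2
      _ = (∑ w ∈ P ×ˢ P, (if w.1 = w.2 then Y else 0)) + (P ×ˢ P).card := by
          rw [sum_add_distrib]; simp
      _ = Y * c ^ 2 + c ^ 4 := by
          rw [← sum_filter, sum_const, card_product, hPc]
          have : ((P ×ˢ P).filter (fun w => w.1 = w.2)).card = c ^ 2 := by
            rw [← hPc, ← diag_card P]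
            congr 1
            ext w
            simp only [mem_filter, mem_product, mem_diag]
            constructor
            · rintro ⟨⟨h1, _⟩, h3⟩
              exact ⟨h1, h3⟩
            · rintro ⟨h1, h3⟩
              exact ⟨⟨h1, h3 ▸ h1⟩, h3⟩
          rw [this]
          simp only [smul_eq_mul]
          ring
  have hne : (Icc 1 Y).Nonempty := ⟨1, by simp [hY1]⟩
  obtain ⟨ξ, hξ, hE⟩ : ∃ ξ ∈ Icc 1 Y, Y * E ξ ≤ Y * c ^ 2 + c ^ 4 := by
    apply exists_le_of_sum_le hne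
    rw [← mul_sum, sum_const]
    simp only [Nat.card_Icc, smul_eq_mul, Nat.add_sub_cancel]
    exact Nat.mul_le_mul_left _ hsum
  rw [mem_Icc] at hξ
  refine ⟨ξ, hξ.1, hξ.2, ?_⟩
  have hcs := card_sq_le_image_mul_collisions (f ξ) P
  rw [hPc] at hcs
  change (c ^ 2) ^ 2 ≤ (P.image (f ξ)).card * E ξ at hcs
  change c ^ 2 * Y ≤ (P.image (f ξ)).card * (Y + c ^ 2)
  set I := (P.image (f ξ)).card
  rcases Nat.eq_zero_or_pos c with h0 | h0
  · rw [h0]; simp
  · have h3 : c ^ 2 * (c ^ 2 * Y) ≤ c ^ 2 * (I * (Y + c ^ 2)) := by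
      calc c ^ 2 * (c ^ 2 * Y) = (c ^ 2) ^ 2 * Y := by ring
        _ ≤ (I * E ξ) * Y := Nat.mul_le_mul_right _ hcs
        _ = I * (Y * E ξ) := by ring
        _ ≤ I * (Y * c ^ 2 + c ^ 4) := Nat.mul_le_mul_left _ hE
        _ = c ^ 2 * (I * (Y + c ^ 2)) := by ring
    exact Nat.le_of_mul_le_mul_left h3 (by positivity)

end Vale.Agent.Lib.P012
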