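import Mathlib

namespace Vale.Agent.Lib.P012

/-- Every `m ≤ B` is a sum of at most `h` distinct divisors of `M`. -/
def Rep (M B h : ℕ) : Prop :=
  ∀ m ≤ B, ∃ T : Finset ℕ, (∀ d ∈ T, d ∣ M) ∧ T.card ≤ h ∧ ∑ d ∈ T, d = m

theorem Rep.mono_dvd {M M' B h : ℕ} (H : Rep M B h) (hd : M ∣ M') : Rep M' B h := by
  intro m hm
  obtain ⟨T, h1, h2, h3⟩ := H m hm
  exact ⟨T, fun d hdT => (h1 d hdT).trans hd, h2, h3⟩

theorem Rep.mono_card {M B h h' : ℕ} (H : Rep M B h) (hh : h ≤ h') : Rep M B h' := by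
  intro m hm
  obtain ⟨T, h1, h2, h3⟩ := H m hm
  exact ⟨T, h1, h2.trans hh, h3⟩

theorem Rep.mono_bound {M B B' h : ℕ} (H : Rep M B h) (hB : B' ≤ B) : Rep M B' h := by
  intro m hm
  exact H m (hm.trans hB)

theorem rep_one : Rep 1 1 1 := by
  intro m hm
  interval_cases m
  · exact ⟨∅, by simp, by simp, by simp⟩
  · exact ⟨{1}, by simp, by simp, by simp⟩

/-- Digit extension: if every residue mod `Q` is hit by a short sum of divisors of `M`
of total size at most `B`, then `M * Q ^ s` represents everything up to `B * Q ^ s`. -/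
theorem Rep.extend {M B h Q w : ℕ} (H : Rep M B h) (hQ : Nat.Coprime Q M) (hQ2 : 2 ≤ Q)
    (hdig : ∀ t : ℕ, ∃ T : Finset ℕ, (∀ d ∈ T, d ∣ M) ∧ T.card ≤ w ∧ ∑ d ∈ T, d ≤ B ∧
      (∑ d ∈ T, d) ≡ t [MOD Q]) (s : ℕ) :
    Rep (M * Q ^ s) (B * Q ^ s) (h + s * w) := by
  induction s with
  | zero => simpa using H
  | succ s ih =>
    intro m hm
    by_cases hmB : m ≤ B
    · obtain ⟨T, h1, h2, h3⟩ := H m hmB
      exact ⟨T, fun d hd => (h1 d hd).trans (Dvd.intro _ rfl), by omega, h3⟩
    · obtain ⟨T0, a1, a2, a3, a4⟩ := hdig m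
      have hlt : ∑ d ∈ T0, d ≤ m := by omega
      have hdvd : Q ∣ m - ∑ d ∈ T0, d := (Nat.modEq_iff_dvd' hlt).1 a4
      obtain ⟨m', hm'⟩ := hdvd
      have hm'le : m' ≤ B * Q ^ s := by
        have h1 : Q * m' ≤ Q * (B * Q ^ s) := by
          calc Q * m' = m - ∑ d ∈ T0, d := hm'.symm
            _ ≤ m := Nat.sub_le _ _
            _ ≤ B * Q ^ (s + 1) := hm
            _ = Q * (B * Q ^ s) := by ring
        exact Nat.le_of_mul_le_mul_left h1 (by omega)
      obtain ⟨T', b1, b2, b3⟩ := ih m' hm'le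
      have hinj : Function.Injective (fun d : ℕ => Q * d) := by
        intro x y hxy
        exact Nat.eq_of_mul_eq_mul_left (by omega) hxy
      have hdisj : Disjoint T0 (T'.image (fun d => Q * d)) := by
        rw [Finset.disjoint_left]
        intro d hd hd'
        rw [Finset.mem_image] at hd'
        obtain ⟨e, _, rfl⟩ := hd'
        have h1 : Q ∣ M := (Dvd.intro _ rfl).trans (a1 _ hd)
        have h2 : Q ∣ Nat.gcd Q M := Nat.dvd_gcd dvd_rfl h1
        rw [hQ] at h2
        have := Nat.le_of_dvd one_pos h2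
        omega
      refine ⟨T0 ∪ T'.image (fun d => Q * d), ?_, ?_, ?_⟩
      · intro d hd
        rw [Finset.mem_union] at hd
        rcases hd with hd | hd
        · exact (a1 d hd).trans (Dvd.intro _ rfl)
        · rw [Finset.mem_image] at hd
          obtain ⟨e, he, rfl⟩ := hd
          have := b1 e he
          calc Q * e ∣ Q * (M * Q ^ s) := Nat.mul_dvd_mul_left Q this
            _ = M * Q ^ (s + 1) := by ring
      · rw [Finset.card_union_of_disjoint hdisj, Finset.card_image_of_injective _ hinj]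
        have : (s + 1) * w = s * w + w := by ring
        omega
      · rw [Finset.sum_union hdisj, Finset.sum_image (fun x _ y _ hxy => hinj hxy),
          ← Finset.mul_sum, b3, ← hm']
        omega

theorem rep_two_pow (N : ℕ) : Rep (2 ^ N) (2 ^ N) (N + 1) := by
  have h := Rep.extend (Q := 2) (w := 1) rep_one (by simp) le_rfl (by
    intro t
    rcases Nat.even_or_odd t with ht | ht
    · refine ⟨∅, by simp, by simp, by simp, ?_⟩
      have : t % 2 = 0 := Nat.even_iff.1 ht
      simp [Nat.ModEq, this]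
    · refine ⟨{1}, by simp, by simp, by simp, ?_⟩
      have : t % 2 = 1 := Nat.odd_iff.1 ht
      simp [Nat.ModEq, this]) N
  have e : 1 + N * 1 = N + 1 := by ring
  rw [e] at h
  simpa using h

end Vale.Agent.Lib.P012
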