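import Mathlib
import Vale.Agent.Lib.P012.Rep
import Vale.Agent.Lib.P012.Growth

namespace Vale.Agent.Lib.P012

open Finset

/-- The residue `x` mod `p` is a sum of at most `k` divisors of `N` (with repetition),
of total size at most `S`. -/
def Cov (p N k S : ℕ) (x : ZMod p) : Prop :=
  ∃ l : Multiset ℕ, l.card ≤ k ∧ (∀ d ∈ l, d ∣ N) ∧ l.sum ≤ S ∧ ((l.sum : ℕ) : ZMod p) = x

theorem Cov.mono {p N N' k k' S S' : ℕ} {x : ZMod p} (H : Cov p N k S x) (hN : N ∣ N')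
    (hk : k ≤ k') (hS : S ≤ S') : Cov p N' k' S' x := by
  obtain ⟨l, h1, h2, h3, h4⟩ := H
  exact ⟨l, h1.trans hk, fun d hd => (h2 d hd).trans hN, h3.trans hS, h4⟩

theorem Cov.step {p N k S : ℕ} {x y : ZMod p} (hx : Cov p N k S x) (hy : Cov p N k S y)
    (ξ : ℕ) : Cov p (N * ξ) (2 * k) (S * (1 + ξ)) (x + (ξ : ZMod p) * y) := by
  obtain ⟨l, h1, h2, h3, h4⟩ := hx
  obtain ⟨l', g1, g2, g3, g4⟩ := hy
  refine ⟨l + l'.map (fun d => ξ * d), ?_, ?_, ?_, ?_⟩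
  · rw [Multiset.card_add, Multiset.card_map]; omega
  · intro d hd
    rw [Multiset.mem_add] at hd
    rcases hd with hd | hd
    · exact (h2 d hd).trans (Dvd.intro _ rfl)
    · rw [Multiset.mem_map] at hd
      obtain ⟨e, he, rfl⟩ := hd
      rw [mul_comm N ξ]
      exact Nat.mul_dvd_mul_left ξ (g2 e he)
  · rw [Multiset.sum_add, Multiset.sum_map_mul_left, Multiset.map_id']
    calc l.sum + ξ * l'.sum ≤ S + ξ * S := Nat.add_le_add h3 (Nat.mul_le_mul_left _ g3)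
      _ = S * (1 + ξ) := by ring
  · rw [Multiset.sum_add, Multiset.sum_map_mul_left, Multiset.map_id']
    rw [Nat.cast_add, Nat.cast_mul, h4, g4]

theorem set_step {p : ℕ} [Fact p.Prime] (N k S : ℕ) (X : Finset (ZMod p))
    (hX : ∀ x ∈ X, Cov p N k S x) (Y : ℕ) (hY1 : 1 ≤ Y) (hY : Y ≤ p - 1) :
    ∃ (ξ : ℕ) (X' : Finset (ZMod p)), 1 ≤ ξ ∧ ξ ≤ Y ∧
      (∀ x ∈ X', Cov p (N * ξ) (2 * k) (S * (1 + ξ)) x) ∧
      X.card ^ 2 * Y ≤ X'.card * (Y + X.card ^ 2) := by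
  obtain ⟨ξ, h1, h2, h3⟩ := growth X Y hY1 hY
  refine ⟨ξ, _, h1, h2, ?_, h3⟩
  intro x hx
  rw [mem_image] at hx
  obtain ⟨u, hu, rfl⟩ := hx
  rw [mem_product] at hu
  exact (hX _ hu.1).step (hX _ hu.2) ξ

theorem phase_one {p : ℕ} [Fact p.Prime] (N : ℕ) (A : Finset ℕ)
    (hA : ∀ a ∈ A, a ∣ N ∧ 1 ≤ a ∧ a < p) (z : ℕ) (hz : 1 ≤ z) (hAz : 2 * z ≤ A.card) (i : ℕ) :
    ∃ (i' G : ℕ) (X : Finset (ZMod p)), i' ≤ i ∧ 0 < G ∧ (∀ q, q.Prime → q ∣ G → q < p) ∧
      G ≤ 8 ^ i' * X.card ^ 2 ∧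
      (∀ x ∈ X, Cov p (N * G) (2 ^ i') (p * (8 ^ i' * X.card ^ 2)) x) ∧
      2 * z ^ (2 ^ i') ≤ X.card ∧ (i' = i ∨ p - 1 < X.card ^ 2) := by
  induction i with
  | zero =>
    have hcard : (A.image (fun a : ℕ => (a : ZMod p))).card = A.card := by
      apply card_image_of_injOn
      intro a ha b hb hab
      have := (ZMod.natCast_eq_natCast_iff' a b p).1 hab
      rwa [Nat.mod_eq_of_lt (hA a ha).2.2, Nat.mod_eq_of_lt (hA b hb).2.2] at this
    have hc1 : 1 ≤ A.card ^ 2 := Nat.one_le_pow _ _ (by omega)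
    refine ⟨0, 1, A.image (fun a : ℕ => (a : ZMod p)), le_rfl, one_pos, ?_, ?_, ?_, ?_,
      Or.inl rfl⟩
    · intro q hq hq1
      have := Nat.dvd_one.1 hq1
      exact absurd this hq.one_lt.ne'
    · rw [hcard]; simpa using hc1
    · intro x hx
      rw [mem_image] at hx
      obtain ⟨a, ha, rfl⟩ := hx
      refine ⟨{a}, by simp, ?_, ?_, by simp⟩
      · intro d hd
        rw [Multiset.mem_singleton] at hd
        rw [hd, mul_one]
        exact (hA a ha).1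
      · rw [hcard, Multiset.sum_singleton]
        calc a ≤ p * 1 := by have := (hA a ha).2.2; omega
          _ ≤ p * (8 ^ 0 * A.card ^ 2) := by
            apply Nat.mul_le_mul_left
            simpa using hc1
    · rw [hcard]; simpa using hAz
  | succ i ih =>
    obtain ⟨i', G, X, hi', hG, hq, hGle, hCov, hz', halt⟩ := ih
    by_cases hc : p - 1 < X.card ^ 2
    · exact ⟨i', G, X, by omega, hG, hq, hGle, hCov, hz', Or.inr hc⟩
    · have hii : i' = i := by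
        rcases halt with h | h
        · exact h
        · exact absurd h hc
      subst hii
      set c := X.card with hcdef
      have ht1 : 1 ≤ z ^ (2 ^ i') := Nat.one_le_pow _ _ hz
      have hc1 : 1 ≤ c ^ 2 := Nat.one_le_pow _ _ (by omega)
      obtain ⟨ξ, X', h1, h2, hCov', hgrow⟩ :=
        set_step (N * G) (2 ^ i') (p * (8 ^ i' * c ^ 2)) X hCov (c ^ 2) hc1 (by omega)
      rw [← hcdef] at hgrow
      set c' := X'.card with hc'def
      have hcc : c ^ 2 ≤ 2 * c' := by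
        have : c ^ 2 * c ^ 2 ≤ c ^ 2 * (2 * c') := by
          calc c ^ 2 * c ^ 2 ≤ c' * (c ^ 2 + c ^ 2) := hgrow
            _ = c ^ 2 * (2 * c') := by ring
        exact Nat.le_of_mul_le_mul_left this (by omega)
      have h4 : (c ^ 2) ^ 2 ≤ (2 * c') ^ 2 := Nat.pow_le_pow_left hcc 2
      refine ⟨i' + 1, G * ξ, X', le_rfl, Nat.mul_pos hG (by omega), ?_, ?_, ?_, ?_, Or.inl rfl⟩
      · intro q hqp hqd
        rcases (Nat.Prime.dvd_mul hqp).1 hqd with h | h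
        · exact hq q hqp h
        · have := Nat.le_of_dvd (by omega) h
          omega
      · calc G * ξ ≤ (8 ^ i' * c ^ 2) * c ^ 2 := Nat.mul_le_mul hGle h2
          _ = 8 ^ i' * (c ^ 2) ^ 2 := by ring
          _ ≤ 8 ^ i' * (2 * c') ^ 2 := Nat.mul_le_mul_left _ h4
          _ ≤ 8 ^ (i' + 1) * c' ^ 2 := by
            have : 8 ^ (i' + 1) * c' ^ 2 = 8 ^ i' * (2 * c') ^ 2 + 8 ^ i' * (2 * c') ^ 2 := by ring
            omega
      · intro x hx
        refine (hCov' x hx).mono (by rw [mul_assoc]) (by rw [pow_succ]; omega) ?_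
        calc p * (8 ^ i' * c ^ 2) * (1 + ξ) ≤ p * (8 ^ i' * c ^ 2) * (c ^ 2 + c ^ 2) :=
              Nat.mul_le_mul_left _ (by omega)
          _ = 2 * p * 8 ^ i' * (c ^ 2) ^ 2 := by ring
          _ ≤ 2 * p * 8 ^ i' * (2 * c') ^ 2 := Nat.mul_le_mul_left _ h4
          _ = p * (8 ^ (i' + 1) * c' ^ 2) := by ring
      · have e : z ^ (2 ^ (i' + 1)) = (z ^ (2 ^ i')) ^ 2 := by
          rw [← pow_mul, pow_succ]
        rw [e]
        have : (2 * z ^ (2 ^ i')) ^ 2 ≤ c ^ 2 := Nat.pow_le_pow_left hz' 2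
        have e2 : (2 * z ^ (2 ^ i')) ^ 2 = 4 * (z ^ (2 ^ i')) ^ 2 := by ring
        omega

theorem cover {p : ℕ} [Fact p.Prime] (hp : 7 ≤ p) (N : ℕ) (A : Finset ℕ)
    (hA : ∀ a ∈ A, a ∣ N ∧ 1 ≤ a ∧ a < p) (z J : ℕ) (hz : 1 ≤ z) (hAz : 2 * z ≤ A.card)
    (hJ : p - 1 ≤ 4 * z ^ (2 ^ J)) :
    ∃ G : ℕ, 0 < G ∧ G ≤ 8 ^ J * p ^ 4 ∧ (∀ q, q.Prime → q ∣ G → q < p) ∧
      ∀ t : ZMod p, Cov p (N * G) (2 ^ (J + 3)) (2 * 8 ^ J * p ^ 5) t := by
  obtain ⟨i', G, X, hi', hG, hq, hGle, hCov, hz', halt⟩ := phase_one N A hA z hz hAz J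
  set c := X.card with hcdef
  obtain ⟨m, hm⟩ : ∃ m, p = m + 1 := ⟨p - 1, by omega⟩
  have hm6 : 6 ≤ m := by omega
  have hpm : p - 1 = m := by omega
  rw [hpm] at halt hJ
  have hcp : c ≤ p := by
    have := card_le_univ X
    rwa [ZMod.card] at this
  have hc2 : m ≤ c ^ 2 := by
    rcases halt with h | h
    · subst h
      have h2c : m ≤ 2 * c := by omega
      nlinarith
    · omega
  obtain ⟨ξ1, X1, a1, a2, hCov1, hg1⟩ :=
    set_step (N * G) (2 ^ i') (p * (8 ^ i' * c ^ 2)) X hCov (p - 1) (by omega) le_rfl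
  rw [← hcdef, hpm] at hg1
  rw [hpm] at a2
  set c1 := X1.card with hc1def
  have hc1 : m ≤ 2 * c1 := by
    have : c ^ 2 * m ≤ c ^ 2 * (2 * c1) := by
      calc c ^ 2 * m ≤ c1 * (m + c ^ 2) := hg1
        _ ≤ c1 * (c ^ 2 + c ^ 2) := Nat.mul_le_mul_left _ (by omega)
        _ = c ^ 2 * (2 * c1) := by ring
    exact Nat.le_of_mul_le_mul_left this (by omega)
  obtain ⟨ξ2, X2, b1, b2, hCov2, hg2⟩ :=
    set_step (N * G * ξ1) (2 * 2 ^ i') (p * (8 ^ i' * c ^ 2) * (1 + ξ1)) X1 hCov1 (p - 1)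
      (by omega) le_rfl
  rw [← hc1def, hpm] at hg2
  rw [hpm] at b2
  set c2 := X2.card with hc2def
  have hc2' : p < 2 * c2 := by
    by_contra hcon
    have hcon' : 2 * c2 ≤ m + 1 := by omega
    have h1 : 2 * (c1 ^ 2 * m) ≤ (m + 1) * (m + c1 ^ 2) := by
      calc 2 * (c1 ^ 2 * m) ≤ 2 * (c2 * (m + c1 ^ 2)) := Nat.mul_le_mul_left _ hg2
        _ = (2 * c2) * (m + c1 ^ 2) := by ring
        _ ≤ (m + 1) * (m + c1 ^ 2) := Nat.mul_le_mul_right _ hcon'
    have h2 : m ^ 2 ≤ 4 * c1 ^ 2 := by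
      calc m ^ 2 ≤ (2 * c1) ^ 2 := Nat.pow_le_pow_left hc1 2
        _ = 4 * c1 ^ 2 := by ring
    nlinarith
  have h8 : 8 ^ i' ≤ 8 ^ J := Nat.pow_le_pow_right (by norm_num) hi'
  have hcp2 : c ^ 2 ≤ p ^ 2 := Nat.pow_le_pow_left hcp 2
  refine ⟨G * ξ1 * ξ2, Nat.mul_pos (Nat.mul_pos hG (by omega)) (by omega), ?_, ?_, ?_⟩
  · calc G * ξ1 * ξ2 ≤ (8 ^ J * p ^ 2) * p * p :=
          Nat.mul_le_mul (Nat.mul_le_mul (hGle.trans (Nat.mul_le_mul h8 hcp2)) (by omega))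
            (by omega)
      _ = 8 ^ J * p ^ 4 := by ring
  · intro q hqp hqd
    rcases (Nat.Prime.dvd_mul hqp).1 hqd with h | h
    · rcases (Nat.Prime.dvd_mul hqp).1 h with h | h
      · exact hq q hqp h
      · have := Nat.le_of_dvd (by omega) h
        omega
    · have := Nat.le_of_dvd (by omega) h
      omega
  · intro t
    have hnd : ¬ Disjoint X2 (X2.image (fun y => t - y)) := by
      intro hd
      have h := card_le_univ (X2 ∪ X2.image (fun y => t - y))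
      rw [card_union_of_disjoint hd, card_image_of_injective _ sub_right_injective,
        ZMod.card] at h
      omega
    rw [not_disjoint_iff] at hnd
    obtain ⟨y1, hy1, hy1'⟩ := hnd
    rw [mem_image] at hy1'
    obtain ⟨y2, hy2, hy12⟩ := hy1'
    have hfin := (hCov2 y1 hy1).step (hCov2 y2 hy2) 1
    have ht : y1 + ((1 : ℕ) : ZMod p) * y2 = t := by
      rw [← hy12]; simp
    rw [ht] at hfin
    refine hfin.mono ?_ ?_ ?_
    · rw [mul_one, mul_assoc, mul_assoc, mul_assoc]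
    · calc 2 * (2 * (2 * 2 ^ i')) = 2 ^ (i' + 3) := by ring
        _ ≤ 2 ^ (J + 3) := Nat.pow_le_pow_right (by norm_num) (by omega)
    · calc p * (8 ^ i' * c ^ 2) * (1 + ξ1) * (1 + ξ2) * (1 + 1)
          ≤ p * (8 ^ J * p ^ 2) * p * p * (1 + 1) := by
            apply Nat.mul_le_mul_right
            apply Nat.mul_le_mul _ (by omega)
            apply Nat.mul_le_mul _ (by omega)
            exact Nat.mul_le_mul_left _ (Nat.mul_le_mul h8 hcp2)
        _ = 2 * 8 ^ J * p ^ 5 := by ring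

/-- Repeated divisors can be merged at the price of a power of two. -/
theorem merge (k : ℕ) : ∀ (N : ℕ) (l : Multiset ℕ), l.card ≤ k → (∀ d ∈ l, d ∣ N) →
    ∃ T : Finset ℕ, T.card ≤ k ∧ (∀ d ∈ T, d ∣ 2 ^ k * N) ∧ ∑ d ∈ T, d = l.sum := by
  induction k with
  | zero =>
    intro N l hl _
    have : l = 0 := Multiset.card_eq_zero.1 (by omega)
    subst this
    exact ⟨∅, by simp, by simp, by simp⟩
  | succ k ih =>
    intro N l hl hd
    by_cases hnd : l.Nodup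
    · refine ⟨l.toFinset, (Multiset.toFinset_card_le l).trans hl, ?_, ?_⟩
      · intro d hdl
        exact (hd d (Multiset.mem_toFinset.1 hdl)).trans (Dvd.intro_left _ rfl)
      · rw [Finset.sum_eq_multiset_sum, Multiset.toFinset_val, Multiset.dedup_eq_self.2 hnd,
          Multiset.map_id']
    · rw [Multiset.nodup_iff_count_le_one] at hnd
      simp only [not_forall, not_le] at hnd
      obtain ⟨v, hv⟩ := hnd
      have hv1 : v ∈ l := Multiset.count_pos.1 (by omega)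
      obtain ⟨l1, rfl⟩ := Multiset.exists_cons_of_mem hv1
      rw [Multiset.count_cons_self] at hv
      have hv2 : v ∈ l1 := Multiset.count_pos.1 (by omega)
      obtain ⟨l2, rfl⟩ := Multiset.exists_cons_of_mem hv2
      simp only [Multiset.card_cons] at hl
      obtain ⟨T, t1, t2, t3⟩ := ih (2 * N) ((2 * v) ::ₘ l2)
        (by rw [Multiset.card_cons]; omega) (by
          intro d hdl
          rw [Multiset.mem_cons] at hdl
          rcases hdl with rfl | hdl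
          · exact Nat.mul_dvd_mul_left 2 (hd v (by simp))
          · exact (hd d (by simp [hdl])).trans (Dvd.intro_left _ rfl))
      refine ⟨T, by omega, ?_, ?_⟩
      · intro d hdT
        have := t2 d hdT
        have e : 2 ^ (k + 1) * N = 2 ^ k * (2 * N) := by ring
        rwa [e]
      · rw [t3]
        simp only [Multiset.sum_cons]
        ring

theorem level_step {M B h p : ℕ} [Fact p.Prime] (H : Rep M B h) (hp : 7 ≤ p)
    (hpM : ∀ q, q.Prime → q ∣ M → q < p) (A : Finset ℕ)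
    (hA : ∀ a ∈ A, a ∣ M ∧ 1 ≤ a ∧ a < p) (z J : ℕ) (hz : 1 ≤ z) (hAz : 2 * z ≤ A.card)
    (hJ : p - 1 ≤ 4 * z ^ (2 ^ J)) (hB : 2 * 8 ^ J * p ^ 5 ≤ B) (s : ℕ) :
    ∃ G : ℕ, 0 < G ∧ G ≤ 8 ^ J * p ^ 4 ∧ (∀ q, q.Prime → q ∣ G → q < p) ∧
      Rep (2 ^ (2 ^ (J + 3)) * (M * G) * p ^ s) (B * p ^ s) (h + s * 2 ^ (J + 3)) := by
  have hpp : p.Prime := Fact.out
  obtain ⟨G, hG, hGle, hGq, hcov⟩ := cover hp M A hA z J hz hAz hJ
  refine ⟨G, hG, hGle, hGq, ?_⟩
  have H1 : Rep (2 ^ (2 ^ (J + 3)) * (M * G)) B h :=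
    H.mono_dvd ((Dvd.intro _ rfl).trans (Dvd.intro_left _ rfl))
  apply H1.extend
  · rw [Nat.Prime.coprime_iff_not_dvd hpp]
    intro hd
    rcases (Nat.Prime.dvd_mul hpp).1 hd with h1 | h1
    · have := Nat.Prime.dvd_of_dvd_pow hpp h1
      have := Nat.le_of_dvd (by norm_num) this
      omega
    · rcases (Nat.Prime.dvd_mul hpp).1 h1 with h2 | h2
      · exact absurd (hpM p hpp h2) (lt_irrefl _)
      · exact absurd (hGq p hpp h2) (lt_irrefl _)
  · omega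
  · intro t
    obtain ⟨l, l1, l2, l3, l4⟩ := hcov (t : ZMod p)
    obtain ⟨T, t1, t2, t3⟩ := merge (2 ^ (J + 3)) (M * G) l l1 l2
    refine ⟨T, t2, t1, by rw [t3]; exact l3.trans hB, ?_⟩
    rw [t3]
    exact (ZMod.natCast_eq_natCast_iff _ _ _).1 l4

end Vale.Agent.Lib.P012
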