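import Mathlib
import Vale.Agent.Lib.P012.Rep

namespace Vale.Agent.Lib.P012

/-- A small fraction `a / b ≤ B / M` with `b ≤ B` is a sum of at most `2 h` distinct unit fractions. -/
theorem small_fraction {M B h a b : ℕ} (H : Rep M B h) (hM : 0 < M) (hb : 0 < b) (hbB : b ≤ B)
    (hab : a * M ≤ B * b) :
    ∃ S : Finset ℕ, S.card ≤ 2 * h ∧ (∀ n ∈ S, 0 < n) ∧
      ∑ n ∈ S, (1 / (n : ℚ)) = (a : ℚ) / b := by
  set q := a * M / b with hq
  set r := a * M % b with hr
  have hqr : b * q + r = a * M := Nat.div_add_mod (a * M) b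
  have hrb : r < b := Nat.mod_lt _ hb
  have hqB : q ≤ B := by
    rw [hq]
    exact Nat.div_le_of_le_mul (by rw [mul_comm b B]; exact hab)
  obtain ⟨T1, d1, c1, s1⟩ := H q hqB
  obtain ⟨T2, d2, c2, s2⟩ := H r (by omega)
  have pos1 : ∀ e ∈ T1, 0 < e := fun e he => Nat.pos_of_dvd_of_pos (d1 e he) hM
  have pos2 : ∀ f ∈ T2, 0 < f := fun f hf => Nat.pos_of_dvd_of_pos (d2 f hf) hM
  have inj1 : Set.InjOn (fun e => M / e) (T1 : Set ℕ) := by
    intro e he e' he' hee
    simp only at hee
    rw [← Nat.div_div_self (d1 e he) hM.ne', hee, Nat.div_div_self (d1 e' he') hM.ne']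
  have inj2 : Set.InjOn (fun f => b * (M / f)) (T2 : Set ℕ) := by
    intro e he e' he' hee
    simp only at hee
    have h1 : M / e = M / e' := Nat.eq_of_mul_eq_mul_left hb hee
    rw [← Nat.div_div_self (d2 e he) hM.ne', h1, Nat.div_div_self (d2 e' he') hM.ne']
  have hdisj : Disjoint (T1.image (fun e => M / e)) (T2.image (fun f => b * (M / f))) := by
    rw [Finset.disjoint_left]
    intro n hn hn'
    obtain ⟨e, he, rfl⟩ := Finset.mem_image.mp hn
    obtain ⟨f, hf, hfe⟩ := Finset.mem_image.mp hn'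
    have hfr : f ≤ r := by
      rw [← s2]
      exact Finset.single_le_sum (f := fun d => d) (fun _ _ => Nat.zero_le _) hf
    have hfb : f < b := by omega
    obtain ⟨c, hc⟩ := d2 f hf
    have hcpos : 0 < c := by
      rcases Nat.eq_zero_or_pos c with h0 | h0
      · rw [h0, mul_zero] at hc
        omega
      · exact h0
    have hMf : M / f = c := by
      rw [hc]
      exact Nat.mul_div_cancel_left c (pos2 f hf)
    have h1 : M / e ≤ M := Nat.div_le_self M e
    have h2 : M < b * (M / f) := by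
      rw [hMf, hc]
      exact Nat.mul_lt_mul_of_pos_right hfb hcpos
    omega
  refine ⟨T1.image (fun e => M / e) ∪ T2.image (fun f => b * (M / f)), ?_, ?_, ?_⟩
  · calc (T1.image (fun e => M / e) ∪ T2.image (fun f => b * (M / f))).card
        ≤ (T1.image (fun e => M / e)).card + (T2.image (fun f => b * (M / f))).card :=
          Finset.card_union_le _ _
      _ ≤ T1.card + T2.card := Nat.add_le_add Finset.card_image_le Finset.card_image_le
      _ ≤ 2 * h := by omega
  · intro n hn
    rcases Finset.mem_union.mp hn with hn | hn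
    · obtain ⟨e, he, rfl⟩ := Finset.mem_image.mp hn
      exact Nat.div_pos (Nat.le_of_dvd hM (d1 e he)) (pos1 e he)
    · obtain ⟨f, hf, rfl⟩ := Finset.mem_image.mp hn
      exact Nat.mul_pos hb (Nat.div_pos (Nat.le_of_dvd hM (d2 f hf)) (pos2 f hf))
  · rw [Finset.sum_union hdisj, Finset.sum_image inj1, Finset.sum_image inj2]
    have hMq : (M : ℚ) ≠ 0 := by exact_mod_cast hM.ne'
    have hbq : (b : ℚ) ≠ 0 := by exact_mod_cast hb.ne'
    have e1 : ∑ e ∈ T1, (1 / ((M / e : ℕ) : ℚ)) = (q : ℚ) / M := by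
      rw [← s1, Nat.cast_sum, Finset.sum_div]
      refine Finset.sum_congr rfl (fun e he => ?_)
      have heq : (e : ℚ) ≠ 0 := by exact_mod_cast (pos1 e he).ne'
      rw [Nat.cast_div (d1 e he) heq]
      field_simp
    have e2 : ∑ f ∈ T2, (1 / ((b * (M / f) : ℕ) : ℚ)) = (r : ℚ) / (b * M) := by
      rw [← s2, Nat.cast_sum, Finset.sum_div]
      refine Finset.sum_congr rfl (fun f hf => ?_)
      have hfq : (f : ℚ) ≠ 0 := by exact_mod_cast (pos2 f hf).ne'
      rw [Nat.cast_mul, Nat.cast_div (d2 f hf) hfq]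
      field_simp
    rw [e1, e2]
    have hcast : (b : ℚ) * q + r = a * M := by exact_mod_cast hqr
    field_simp
    linarith

/-- Greedy (Sylvester) steps: doubly exponential approximation from below. -/
theorem greedy (k : ℕ) : ∀ (X a b δ : ℕ), 2 ≤ X → 0 < b → a * X < b → X ≤ δ ^ 2 →
    δ ≤ X ^ (2 ^ k) →
    ∃ (S : Finset ℕ) (a' : ℕ), S.card ≤ k ∧ (∀ n ∈ S, X < n ∧ n ≤ δ) ∧
      X * ∏ n ∈ S, n ≤ δ ^ 2 ∧ a' * δ < b * ∏ n ∈ S, n ∧
      (a : ℚ) / b = ∑ n ∈ S, (1 / (n : ℚ)) + (a' : ℚ) / ((b * ∏ n ∈ S, n : ℕ) : ℚ) := by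
  induction k with
  | zero =>
    intro X a b δ hX hb haX hXδ hδ
    refine ⟨∅, a, by simp, by simp, by simpa using hXδ, ?_, by simp⟩
    simp only [pow_zero, pow_one] at hδ
    simp only [Finset.prod_empty, mul_one]
    calc a * δ ≤ a * X := Nat.mul_le_mul_left a hδ
      _ < b := haX
  | succ k ih =>
    intro X a b δ hX hb haX hXδ hδ
    by_cases hsmall : a * δ < b
    · exact ⟨∅, a, by simp, by simp, by simpa using hXδ, by simpa using hsmall, by simp⟩
    · push Not at hsmall
      have hapos : 0 < a := by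
        rcases Nat.eq_zero_or_pos a with h0 | h0
        · rw [h0, zero_mul] at hsmall
          omega
        · exact h0
      -- least n with b ≤ a * n
      have hex : ∃ n, b ≤ a * n := ⟨δ, hsmall⟩
      classical
      set n := Nat.find hex with hn
      have hn1 : b ≤ a * n := Nat.find_spec hex
      have hnδ : n ≤ δ := Nat.find_min' hex hsmall
      have hXn : X < n := by
        by_contra hcon
        push Not at hcon
        have : a * n ≤ a * X := Nat.mul_le_mul_left a hcon
        omega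
      have hn2 : a * (n - 1) < b := by
        have := Nat.find_min hex (m := n - 1) (by omega)
        omega
      obtain ⟨m, hm⟩ : ∃ m, n = m + 1 := ⟨n - 1, by omega⟩
      have hm2 : a * m < b := by
        have : n - 1 = m := by omega
        rwa [this] at hn2
      have hXm : X ≤ m := by omega
      have hn1' : b ≤ a * (m + 1) := by rw [← hm]; exact hn1
      -- new data
      have hA : (a * n - b) * (n * m) < b * n := by
        have h1 : a * n - b < a := by
          rw [hm]
          have : a * (m + 1) = a * m + a := by ring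
          omega
        have h2 : (a * n - b) * m ≤ a * m := Nat.mul_le_mul_right m h1.le
        have h3 : (a * n - b) * m < b := lt_of_le_of_lt h2 hm2
        have hnpos : 0 < n := by omega
        calc (a * n - b) * (n * m) = ((a * n - b) * m) * n := by ring
          _ < b * n := Nat.mul_lt_mul_of_pos_right h3 hnpos
      have hX' : 2 ≤ n * m := by
        have : 2 * 1 ≤ n * m := Nat.mul_le_mul (by omega) (by omega)
        omega
      have hX'δ : n * m ≤ δ ^ 2 := by
        rw [sq]
        exact Nat.mul_le_mul hnδ (by omega)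
      have hδ' : δ ≤ (n * m) ^ (2 ^ k) := by
        calc δ ≤ X ^ (2 ^ (k + 1)) := hδ
          _ = (X * X) ^ (2 ^ k) := by rw [pow_succ, mul_comm (2 ^ k) 2, pow_mul, sq]
          _ ≤ (n * m) ^ (2 ^ k) := Nat.pow_le_pow_left (Nat.mul_le_mul hXn.le hXm) _
      obtain ⟨S', a', c1, c2, c3, c4, c5⟩ :=
        ih (n * m) (a * n - b) (b * n) δ hX' (Nat.mul_pos hb (by omega)) hA hX'δ hδ'
      have hnS : n ∉ S' := by
        intro hmem
        have h1 := (c2 n hmem).1
        have h2 : n * 1 ≤ n * m := Nat.mul_le_mul_left n (by omega)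
        omega
      refine ⟨insert n S', a', ?_, ?_, ?_, ?_, ?_⟩
      · rw [Finset.card_insert_of_notMem hnS]
        omega
      · intro x hx
        rcases Finset.mem_insert.mp hx with rfl | hx
        · exact ⟨hXn, hnδ⟩
        · have h1 := c2 x hx
          have h2 : n * 1 ≤ n * m := Nat.mul_le_mul_left n (by omega)
          exact ⟨by omega, h1.2⟩
      · rw [Finset.prod_insert hnS]
        calc X * (n * ∏ x ∈ S', x) = (n * X) * ∏ x ∈ S', x := by ring
          _ ≤ (n * m) * ∏ x ∈ S', x := Nat.mul_le_mul_right _ (Nat.mul_le_mul_left n hXm)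
          _ ≤ δ ^ 2 := c3
      · rw [Finset.prod_insert hnS, ← mul_assoc]
        exact c4
      · rw [Finset.prod_insert hnS, Finset.sum_insert hnS, ← mul_assoc, add_assoc, ← c5]
        have hbq : (b : ℚ) ≠ 0 := by exact_mod_cast hb.ne'
        have hnq : (n : ℚ) ≠ 0 := by
          have : n ≠ 0 := by omega
          exact_mod_cast this
        rw [Nat.cast_sub hn1, Nat.cast_mul, Nat.cast_mul]
        field_simp
        ring

theorem final_fraction {M B h δ k a b : ℕ} (H : Rep M B h) (hM : 0 < M) (hδ : 2 ≤ δ)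
    (hMB : M ≤ δ * B) (ha : 1 ≤ a) (hab : a < b) (hb : b * δ ^ 2 ≤ B) (hk : δ ≤ 2 ^ (2 ^ k)) :
    ∃ S : Finset ℕ, S.card ≤ k + 1 + 2 * h ∧ (∀ n ∈ S, 2 ≤ n) ∧
      ∑ n ∈ S, (1 / (n : ℚ)) = (a : ℚ) / b := by
  have h2δ : 2 ≤ δ ^ 2 := by nlinarith
  -- common tail of the argument
  have tail : ∀ a₀ b₀ : ℕ, 0 < b₀ → a₀ * 2 < b₀ → b₀ ≤ 2 * b →
      ∃ S : Finset ℕ, S.card ≤ k + 2 * h ∧ (∀ n ∈ S, 2 < n) ∧
        ∑ n ∈ S, (1 / (n : ℚ)) = (a₀ : ℚ) / b₀ := by
    intro a₀ b₀ hb₀ h1 h2
    obtain ⟨S, a', c1, c2, c3, c4, c5⟩ := greedy k 2 a₀ b₀ δ le_rfl hb₀ h1 h2δ hk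
    set P := ∏ n ∈ S, n with hP
    have hPpos : 0 < P := Finset.prod_pos (fun n hn => by have := (c2 n hn).1; omega)
    have hb' : 0 < b₀ * P := Nat.mul_pos hb₀ hPpos
    have hb'B : b₀ * P ≤ B := by
      calc b₀ * P ≤ (2 * b) * P := Nat.mul_le_mul_right P h2
        _ = b * (2 * P) := by ring
        _ ≤ b * δ ^ 2 := Nat.mul_le_mul_left b c3
        _ ≤ B := hb
    have haM : a' * M ≤ B * (b₀ * P) := by
      calc a' * M ≤ a' * (δ * B) := Nat.mul_le_mul_left a' hMB
        _ = (a' * δ) * B := by ring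
        _ ≤ (b₀ * P) * B := Nat.mul_le_mul_right B c4.le
        _ = B * (b₀ * P) := by ring
    obtain ⟨S2, e1, e2, e3⟩ := small_fraction H hM hb' hb'B haM
    have hbig : ∀ n ∈ S2, δ < n := by
      intro n hn
      have hnpos := e2 n hn
      have h3 : (1 / (n : ℚ)) ≤ (a' : ℚ) / ((b₀ * P : ℕ) : ℚ) := by
        rw [← e3]
        exact Finset.single_le_sum (f := fun x : ℕ => (1 / (x : ℚ)))
          (fun x _ => by positivity) hn
      have hnq : (0 : ℚ) < (n : ℚ) := by exact_mod_cast hnpos
      have hbq : (0 : ℚ) < ((b₀ * P : ℕ) : ℚ) := by exact_mod_cast hb'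
      rw [div_le_div_iff₀ hnq hbq] at h3
      have h4 : 1 * (b₀ * P) ≤ a' * n := by exact_mod_cast h3
      by_contra hcon
      push Not at hcon
      have h5 : a' * n ≤ a' * δ := Nat.mul_le_mul_left a' hcon
      omega
    have hdisj : Disjoint S S2 := by
      rw [Finset.disjoint_left]
      intro n hn hn'
      have := (c2 n hn).2
      have := hbig n hn'
      omega
    refine ⟨S ∪ S2, ?_, ?_, ?_⟩
    · rw [Finset.card_union_of_disjoint hdisj]
      omega
    · intro n hn
      rcases Finset.mem_union.mp hn with hn | hn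
      · exact (c2 n hn).1
      · have := hbig n hn
        omega
    · rw [Finset.sum_union hdisj, e3, c5]
  by_cases hhalf : 2 * a < b
  · obtain ⟨S, s1, s2, s3⟩ := tail a b (by omega) (by omega) (by omega)
    exact ⟨S, by omega, fun n hn => (s2 n hn).le, s3⟩
  · push Not at hhalf
    obtain ⟨S, s1, s2, s3⟩ := tail (2 * a - b) (2 * b) (by omega) (by omega) le_rfl
    have h2S : 2 ∉ S := fun hmem => by
      have := s2 2 hmem
      omega
    refine ⟨insert 2 S, ?_, ?_, ?_⟩
    · rw [Finset.card_insert_of_notMem h2S]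
      omega
    · intro n hn
      rcases Finset.mem_insert.mp hn with rfl | hn
      · exact le_rfl
      · exact (s2 n hn).le
    · rw [Finset.sum_insert h2S, s3]
      have hbq : (b : ℚ) ≠ 0 := by
        have : b ≠ 0 := by omega
        exact_mod_cast this
      rw [Nat.cast_sub hhalf]
      push_cast
      field_simp
      ring

end Vale.Agent.Lib.P012
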