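import Mathlib

namespace Vale.Agent.Lib.P012

open Finset

/-- The set of primes up to `y`. -/
def primesLe (y : ℕ) : Finset ℕ := (Finset.range (y + 1)).filter Nat.Prime

/-- Chebyshev-type lower bound at powers of two. -/
theorem pi_lower (v : ℕ) (hv : 1 ≤ v) : 2 ^ v ≤ v * ((primesLe (2 ^ v)).card + 1) := by
  obtain ⟨w, rfl⟩ : ∃ w, v = w + 1 := ⟨v - 1, by omega⟩
  set n : ℕ := 2 ^ w with hn
  have hnpos : 0 < n := by positivity
  have h2n : 2 * n = 2 ^ (w + 1) := by rw [hn, pow_succ]; ring
  have h1 := Nat.four_pow_le_two_mul_self_mul_centralBinom n hnpos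
  have h2 : Nat.centralBinom n ≤ (2 * n) ^ (primesLe (2 * n)).card := by
    rw [← Nat.prod_pow_factorization_centralBinom n]
    have hsub : ∏ p ∈ Finset.range (2 * n + 1), p ^ (Nat.centralBinom n).factorization p
        = ∏ p ∈ primesLe (2 * n), p ^ (Nat.centralBinom n).factorization p := by
      unfold primesLe
      rw [Finset.prod_filter]
      refine Finset.prod_congr rfl (fun p _ => ?_)
      split_ifs with hp
      · rfl
      · rw [Nat.factorization_eq_zero_of_not_prime _ hp, pow_zero]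
    rw [hsub]
    refine Finset.prod_le_pow_card _ _ _ (fun p _ => ?_)
    rw [Nat.centralBinom_eq_two_mul_choose]
    exact Nat.pow_factorization_choose_le (by omega)
  have h3 : 4 ^ n ≤ (2 * n) ^ ((primesLe (2 * n)).card + 1) := by
    calc 4 ^ n ≤ 2 * n * Nat.centralBinom n := h1
      _ ≤ 2 * n * (2 * n) ^ (primesLe (2 * n)).card := Nat.mul_le_mul_left _ h2
      _ = (2 * n) ^ ((primesLe (2 * n)).card + 1) := by rw [pow_succ]; ring
  rw [h2n] at h3
  have h4 : (4 : ℕ) ^ n = 2 ^ (2 ^ (w + 1)) := by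
    rw [show (4 : ℕ) = 2 ^ 2 by norm_num, ← pow_mul, h2n]
  rw [h4, ← pow_mul] at h3
  exact (Nat.pow_le_pow_iff_right (by norm_num)).mp h3

/-- Many divisors of the primorial below `y ^ u`. -/
theorem exists_A (y u g : ℕ) (hu : 1 ≤ u) (hpi : u * (2 ^ g + 1) ≤ (primesLe y).card) :
    ∃ A : Finset ℕ, (∀ a ∈ A, a ∣ primorial y ∧ 1 ≤ a ∧ a ≤ y ^ u) ∧ 2 ^ (g * u) ≤ A.card := by
  have hprime : ∀ s ∈ (primesLe y).powersetCard u, ∀ p ∈ s, p.Prime := by
    intro s hs p hp
    have := (Finset.mem_powersetCard.mp hs).1 hp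
    exact (Finset.mem_filter.mp this).2
  refine ⟨((primesLe y).powersetCard u).image (fun s => ∏ p ∈ s, p), ?_, ?_⟩
  · intro a ha
    obtain ⟨s, hs, rfl⟩ := Finset.mem_image.mp ha
    obtain ⟨hsub, hcard⟩ := Finset.mem_powersetCard.mp hs
    refine ⟨?_, ?_, ?_⟩
    · exact Finset.prod_dvd_prod_of_subset _ _ _ hsub
    · exact Nat.one_le_iff_ne_zero.mpr
        (Finset.prod_ne_zero_iff.mpr (fun p hp => (hprime s hs p hp).ne_zero))
    · rw [← hcard]
      refine Finset.prod_le_pow_card _ _ _ (fun p hp => ?_)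
      have := Finset.mem_range.mp (Finset.mem_filter.mp (hsub hp)).1
      omega
  · rw [Finset.card_image_of_injOn, Finset.card_powersetCard]
    · set N := (primesLe y).card with hN
      have h1 : (N + 1 - u) ^ u ≤ u.factorial * N.choose u := by
        rw [← Nat.descFactorial_eq_factorial_mul_choose]
        exact N.pow_sub_le_descFactorial u
      have h2 : u * 2 ^ g ≤ N + 1 - u := by
        have : u * (2 ^ g + 1) = u * 2 ^ g + u := by ring
        omega
      have h3 : (u * 2 ^ g) ^ u ≤ u ^ u * N.choose u := by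
        calc (u * 2 ^ g) ^ u ≤ (N + 1 - u) ^ u := Nat.pow_le_pow_left h2 u
          _ ≤ u.factorial * N.choose u := h1
          _ ≤ u ^ u * N.choose u := Nat.mul_le_mul_right _ (Nat.factorial_le_pow u)
      rw [mul_pow, ← pow_mul] at h3
      exact Nat.le_of_mul_le_mul_left h3 (by positivity)
    · intro s hs t ht hst
      have h1 := Nat.primeFactors_prod (hprime s hs)
      have h2 := Nat.primeFactors_prod (hprime t ht)
      simp only at hst
      rw [← h1, ← h2, hst]

end Vale.Agent.Lib.P012
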