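import Mathlib
import Vale.Agent.Lib.P012.Rep
import Vale.Agent.Lib.P012.Cover
import Vale.Agent.Lib.P012.Primes
import Vale.Agent.Lib.P012.Egypt

namespace Vale.Agent.Lib.P012

open Finset

theorem three_mul_add_four_le (L : ℕ) (hL : 4 ≤ L) : 3 * L + 4 ≤ 2 ^ L := by
  induction L, hL using Nat.le_induction with
  | base => norm_num
  | succ n hn ih => rw [pow_succ]; omega

theorem pi_big (L v : ℕ) (hv : v = 2 ^ L) (hLv : L + 1 ≤ v) :
    2 ^ (v - L - 1) ≤ (primesLe (2 ^ v)).card := by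
  have h1 := pi_lower v (by omega)
  have e1 : 2 ^ v = 2 ^ L * 2 ^ (v - L) := by rw [← pow_add]; congr 1; omega
  have e2 : 2 ^ (v - L) = 2 * 2 ^ (v - L - 1) := by rw [← pow_succ']; congr 1; omega
  have h2 : 2 ^ L * 2 ^ (v - L) ≤ 2 ^ L * ((primesLe (2 ^ v)).card + 1) := by
    rw [← e1]
    calc 2 ^ v ≤ v * ((primesLe (2 ^ v)).card + 1) := h1
      _ = 2 ^ L * ((primesLe (2 ^ v)).card + 1) := by rw [← hv]
  have h3 := Nat.le_of_mul_le_mul_left h2 (by positivity)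
  have h4 : 1 ≤ 2 ^ (v - L - 1) := Nat.one_le_two_pow
  omega

theorem step_lemma (L v i g J E : ℕ) (hv : v = 2 ^ L) (hL : 4 ≤ L) (hg : g + L + 2 + i = v)
    (hg2 : 2 ≤ g) (hJ : J + Nat.log 2 g = L + 1) (hE : E = v * 2 ^ i) {M B h Δ : ℕ}
    (hM : 0 < M) (H : Rep M B h) (hprim : primorial (2 ^ v) ∣ M)
    (hq : ∀ q, q.Prime → q ∣ M → q ≤ 2 ^ E) (hB : 2 ^ (84 * E) ≤ B) (hMB : M ≤ 2 ^ Δ * B) :
    ∃ M' B' : ℕ, 0 < M' ∧ Rep M' B' (h + 1344 * 2 ^ J) ∧ primorial (2 ^ v) ∣ M' ∧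
      (∀ q, q.Prime → q ∣ M' → q ≤ 2 ^ (2 * E)) ∧ 2 ^ (84 * (2 * E)) ≤ B' ∧
      M' ≤ 2 ^ (Δ + 22 * E) * B' := by
  have hLv : 3 * L + 4 ≤ v := hv ▸ three_mul_add_four_le L hL
  have hu1 : 1 ≤ 2 ^ i := Nat.one_le_two_pow
  have hvE : v ≤ E := by rw [hE]; exact Nat.le_mul_of_pos_right _ (by omega)
  have hJL : J ≤ L + 1 := by omega
  -- the prime
  obtain ⟨p, hp, hp1, hp2⟩ := Nat.exists_prime_lt_and_le_two_mul (2 ^ E) (by positivity)
  have : Fact p.Prime := ⟨hp⟩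
  have hp2' : p ≤ 2 ^ (E + 1) := by rw [pow_succ]; omega
  have hp7 : 7 ≤ p := by
    have : 2 ^ 3 ≤ 2 ^ E := Nat.pow_le_pow_right (by norm_num) (by omega)
    omega
  -- the set A
  have hpi : 2 ^ i * (2 ^ g + 1) ≤ (primesLe (2 ^ v)).card := by
    refine le_trans ?_ (pi_big L v hv (by omega))
    have h1 : 1 ≤ 2 ^ g := Nat.one_le_two_pow
    calc 2 ^ i * (2 ^ g + 1) ≤ 2 ^ i * (2 ^ (g + 1)) := by
          apply Nat.mul_le_mul_left; rw [pow_succ]; omega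
      _ = 2 ^ (v - L - 1) := by rw [← pow_add]; congr 1; omega
  obtain ⟨A, hA, hAcard⟩ := exists_A (2 ^ v) (2 ^ i) g hu1 hpi
  have hyu : (2 ^ v) ^ (2 ^ i) = 2 ^ E := by rw [← pow_mul, hE]
  have hA' : ∀ a ∈ A, a ∣ M ∧ 1 ≤ a ∧ a < p := by
    intro a ha
    obtain ⟨a1, a2, a3⟩ := hA a ha
    rw [hyu] at a3
    exact ⟨a1.trans hprim, a2, by omega⟩
  -- z
  obtain ⟨t, ht⟩ : ∃ t, g * 2 ^ i = t + 1 := ⟨g * 2 ^ i - 1, by
    have : 1 ≤ g * 2 ^ i := Nat.mul_pos (by omega) (by omega)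
    omega⟩
  have ht1 : 1 ≤ t := by
    have : 2 * 1 ≤ g * 2 ^ i := Nat.mul_le_mul hg2 hu1
    omega
  have hAz : 2 * 2 ^ t ≤ A.card := by
    rw [ht, pow_succ] at hAcard
    omega
  have hDg : 2 * v ≤ 2 ^ J * g := by
    have h1 : 2 ^ Nat.log 2 g ≤ g := Nat.pow_log_le_self 2 (by omega)
    calc 2 * v = 2 ^ (J + Nat.log 2 g) := by rw [hJ, pow_succ, hv]; ring
      _ = 2 ^ J * 2 ^ Nat.log 2 g := pow_add _ _ _
      _ ≤ 2 ^ J * g := Nat.mul_le_mul_left _ h1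
  have htD : E ≤ t * 2 ^ J := by
    have h1 : 2 * E ≤ 2 * (t * 2 ^ J) := by
      calc 2 * E = (2 * v) * 2 ^ i := by rw [hE]; ring
        _ ≤ (2 ^ J * g) * 2 ^ i := Nat.mul_le_mul_right _ hDg
        _ = (g * 2 ^ i) * 2 ^ J := by ring
        _ = (t + 1) * 2 ^ J := by rw [ht]
        _ ≤ (2 * t) * 2 ^ J := Nat.mul_le_mul_right _ (by omega)
        _ = 2 * (t * 2 ^ J) := by ring
    omega
  have hJ' : p - 1 ≤ 4 * (2 ^ t) ^ (2 ^ J) := by
    calc p - 1 ≤ 2 ^ (E + 1) := by omega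
      _ ≤ 2 ^ (2 + t * 2 ^ J) := Nat.pow_le_pow_right (by norm_num) (by omega)
      _ = 4 * (2 ^ t) ^ (2 ^ J) := by rw [pow_add, ← pow_mul]; norm_num
  have h8J : 8 ^ J ≤ 2 ^ (3 * L + 3) := by
    calc 8 ^ J = 2 ^ (3 * J) := by rw [pow_mul]; norm_num
      _ ≤ 2 ^ (3 * L + 3) := Nat.pow_le_pow_right (by norm_num) (by omega)
  have hB' : 2 * 8 ^ J * p ^ 5 ≤ B := by
    calc 2 * 8 ^ J * p ^ 5 ≤ 2 * 2 ^ (3 * L + 3) * (2 ^ (E + 1)) ^ 5 :=
          Nat.mul_le_mul (Nat.mul_le_mul_left _ h8J) (Nat.pow_le_pow_left hp2' 5)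
      _ = 2 ^ (1 + (3 * L + 3) + (E + 1) * 5) := by ring
      _ ≤ 2 ^ (84 * E) := Nat.pow_le_pow_right (by norm_num) (by omega)
      _ ≤ B := hB
  obtain ⟨G, hG, hGle, hGq, HR⟩ := level_step H hp7
    (fun q hqp hqd => lt_of_le_of_lt (hq q hqp hqd) hp1) A hA' (2 ^ t) J Nat.one_le_two_pow hAz
    hJ' hB' 168
  have hpE : 2 ^ (E + 1) ≤ 2 ^ (2 * E) := Nat.pow_le_pow_right (by norm_num) (by omega)
  refine ⟨2 ^ (2 ^ (J + 3)) * (M * G) * p ^ 168, B * p ^ 168, by positivity, ?_, ?_, ?_, ?_, ?_⟩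
  · have e : h + 168 * 2 ^ (J + 3) = h + 1344 * 2 ^ J := by rw [pow_add]; ring
    rwa [e] at HR
  · exact hprim.trans ((Dvd.intro _ rfl).trans ((Dvd.intro_left _ rfl).trans (Dvd.intro _ rfl)))
  · intro q hqp hqd
    have hqle : q ≤ p := by
      rcases (Nat.Prime.dvd_mul hqp).1 hqd with h1 | h1
      · rcases (Nat.Prime.dvd_mul hqp).1 h1 with h2 | h2
        · have := Nat.le_of_dvd (by norm_num) (Nat.Prime.dvd_of_dvd_pow hqp h2)
          omega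
        · rcases (Nat.Prime.dvd_mul hqp).1 h2 with h3 | h3
          · exact (lt_of_le_of_lt (hq q hqp h3) hp1).le
          · exact (hGq q hqp h3).le
      · exact Nat.le_of_dvd hp.pos (Nat.Prime.dvd_of_dvd_pow hqp h1)
    omega
  · have hB1 : 1 ≤ B := le_trans Nat.one_le_two_pow hB
    calc 2 ^ (84 * (2 * E)) = (2 ^ E) ^ 168 := by rw [← pow_mul]; congr 1; ring
      _ ≤ p ^ 168 := Nat.pow_le_pow_left hp1.le 168
      _ ≤ B * p ^ 168 := Nat.le_mul_of_pos_left _ (by omega)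
  · have hw : 2 ^ (J + 3) ≤ 16 * v := by
      calc 2 ^ (J + 3) ≤ 2 ^ (L + 1 + 3) := Nat.pow_le_pow_right (by norm_num) (by omega)
        _ = 16 * v := by rw [hv, pow_add, pow_add]; ring
    have hjunk : 2 ^ (2 ^ (J + 3)) * (8 ^ J * p ^ 4) ≤ 2 ^ (22 * E) := by
      calc 2 ^ (2 ^ (J + 3)) * (8 ^ J * p ^ 4)
          ≤ 2 ^ (16 * v) * (2 ^ (3 * L + 3) * (2 ^ (E + 1)) ^ 4) :=
            Nat.mul_le_mul (Nat.pow_le_pow_right (by norm_num) hw)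
              (Nat.mul_le_mul h8J (Nat.pow_le_pow_left hp2' 4))
        _ = 2 ^ (16 * v + ((3 * L + 3) + (E + 1) * 4)) := by ring
        _ ≤ 2 ^ (22 * E) := Nat.pow_le_pow_right (by norm_num) (by omega)
    calc 2 ^ (2 ^ (J + 3)) * (M * G) * p ^ 168
        ≤ 2 ^ (2 ^ (J + 3)) * ((2 ^ Δ * B) * (8 ^ J * p ^ 4)) * p ^ 168 := by
          apply Nat.mul_le_mul_right
          apply Nat.mul_le_mul_left
          exact Nat.mul_le_mul hMB hGle
      _ = 2 ^ Δ * (2 ^ (2 ^ (J + 3)) * (8 ^ J * p ^ 4)) * (B * p ^ 168) := by ring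
      _ ≤ 2 ^ Δ * 2 ^ (22 * E) * (B * p ^ 168) := by
          apply Nat.mul_le_mul_right
          exact Nat.mul_le_mul_left _ hjunk
      _ = 2 ^ (Δ + 22 * E) * (B * p ^ 168) := by rw [pow_add]

/-- exponent of the number of doublings used at a level with gap `g` -/
def JJ (L g : ℕ) : ℕ := L + 1 - Nat.log 2 g

/-- accumulated cost -/
def FF (L n : ℕ) : ℕ := ∑ g ∈ Finset.Ico 1 n, 2 ^ (JJ L g)

theorem FF_succ (L g : ℕ) (hg : 1 ≤ g) : FF L (g + 1) = FF L g + 2 ^ (JJ L g) :=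
  Finset.sum_Ico_succ_top hg _

theorem FF_mono (L : ℕ) {n n' : ℕ} (h : n ≤ n') : FF L n ≤ FF L n' := by
  apply Finset.sum_le_sum_of_subset
  intro x hx
  rw [mem_Ico] at hx ⊢
  omega

theorem FF_two_pow (L t : ℕ) (ht : t ≤ L + 1) : FF L (2 ^ t) = t * 2 ^ (L + 1) := by
  induction t with
  | zero => simp [FF]
  | succ t ih =>
    have h1 : 1 ≤ 2 ^ t := Nat.one_le_two_pow
    have h2 : 2 ^ t ≤ 2 ^ (t + 1) := Nat.pow_le_pow_right (by norm_num) (by omega)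
    have e := Finset.sum_Ico_consecutive (fun g => 2 ^ (JJ L g)) h1 h2
    have e2 : ∑ g ∈ Finset.Ico (2 ^ t) (2 ^ (t + 1)), 2 ^ (JJ L g) = 2 ^ (L + 1) := by
      have : ∀ g ∈ Finset.Ico (2 ^ t) (2 ^ (t + 1)), 2 ^ (JJ L g) = 2 ^ (L + 1 - t) := by
        intro g hg
        rw [mem_Ico] at hg
        have : Nat.log 2 g = t := Nat.log_eq_of_pow_le_of_lt_pow hg.1 hg.2
        rw [JJ, this]
      rw [Finset.sum_congr rfl this, Finset.sum_const, Nat.card_Ico, smul_eq_mul]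
      have e3 : 2 ^ (t + 1) - 2 ^ t = 2 ^ t := by rw [pow_succ]; omega
      rw [e3, ← pow_add]
      congr 1
      omega
    unfold FF at ih ⊢
    rw [← e, ih (by omega), e2]
    ring

theorem levels (L v : ℕ) (hv : v = 2 ^ L) (hL : 4 ≤ L) (i : ℕ) (hi : i + L + 3 ≤ v) :
    ∃ M B h : ℕ, 0 < M ∧ Rep M B h ∧ primorial (2 ^ v) ∣ M ∧
      (∀ q, q.Prime → q ∣ M → q ≤ 2 ^ (v * 2 ^ i)) ∧ 2 ^ (84 * (v * 2 ^ i)) ≤ B ∧
      M ≤ 2 ^ (2 ^ (v + 1) + 22 * (v * 2 ^ i)) * B ∧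
      h + 1344 * FF L (v - L - 2 - i + 1) ≤ 84 * v + 1 + 1344 * FF L (v - L - 1) := by
  induction i with
  | zero =>
    refine ⟨2 ^ (84 * v) * primorial (2 ^ v), 2 ^ (84 * v), 84 * v + 1,
      Nat.mul_pos (by positivity) (primorial_pos _), (rep_two_pow _).mono_dvd (Dvd.intro _ rfl),
      Dvd.intro_left _ rfl, ?_, by simp, ?_, ?_⟩
    · intro q hqp hqd
      simp only [pow_zero, mul_one]
      rcases (Nat.Prime.dvd_mul hqp).1 hqd with h1 | h1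
      · have := Nat.le_of_dvd (by norm_num) (Nat.Prime.dvd_of_dvd_pow hqp h1)
        have h2 : 2 ^ 1 ≤ 2 ^ v := Nat.pow_le_pow_right (by norm_num) (by omega)
        omega
      · exact (Nat.Prime.dvd_primorial_iff hqp).1 h1
    · have h1 : primorial (2 ^ v) ≤ 2 ^ (2 ^ (v + 1)) := by
        calc primorial (2 ^ v) ≤ 4 ^ (2 ^ v) := (primorial_lt_four_pow _ (by positivity)).le
          _ = 2 ^ (2 ^ (v + 1)) := by
            rw [show (4 : ℕ) = 2 ^ 2 by norm_num, ← pow_mul, pow_succ]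
            congr 1
            ring
      calc 2 ^ (84 * v) * primorial (2 ^ v) ≤ 2 ^ (84 * v) * 2 ^ (2 ^ (v + 1)) :=
            Nat.mul_le_mul_left _ h1
        _ = 2 ^ (2 ^ (v + 1)) * 2 ^ (84 * v) := by ring
        _ ≤ 2 ^ (2 ^ (v + 1) + 22 * (v * 2 ^ 0)) * 2 ^ (84 * v) := by
            apply Nat.mul_le_mul_right
            exact Nat.pow_le_pow_right (by norm_num) (by omega)
    · have : v - L - 2 - 0 + 1 = v - L - 1 := by omega
      rw [this]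
  | succ i ih =>
    obtain ⟨M, B, h, hM, H, hprim, hq, hB, hMB, hh⟩ := ih (by omega)
    have hglog : Nat.log 2 (v - L - 2 - i) ≤ L := by
      calc Nat.log 2 (v - L - 2 - i) ≤ Nat.log 2 (2 ^ L) := Nat.log_mono_right (by omega)
        _ = L := Nat.log_pow (by norm_num) L
    obtain ⟨M', B', hM', H', hprim', hq', hB', hMB'⟩ :=
      step_lemma L v i (v - L - 2 - i) (JJ L (v - L - 2 - i)) (v * 2 ^ i) hv hL (by omega)
        (by omega) (by unfold JJ; omega) rfl hM H hprim hq hB hMB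
    have e1 : 2 * (v * 2 ^ i) = v * 2 ^ (i + 1) := by rw [pow_succ]; ring
    rw [e1] at hq' hB'
    refine ⟨M', B', _, hM', H', hprim', hq', hB', ?_, ?_⟩
    · have e2 : 2 ^ (v + 1) + 22 * (v * 2 ^ i) + 22 * (v * 2 ^ i)
          = 2 ^ (v + 1) + 22 * (v * 2 ^ (i + 1)) := by rw [← e1]; ring
      rwa [e2] at hMB'
    · have e3 : v - L - 2 - (i + 1) + 1 = v - L - 2 - i := by omega
      rw [e3]
      rw [FF_succ L (v - L - 2 - i) (by omega)] at hh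
      omega

theorem main_nat (L : ℕ) (hL : 4 ≤ L) (a b : ℕ) (ha : 1 ≤ a) (hab : a < b)
    (hb : b ≤ 2 ^ (2 ^ (2 ^ L))) :
    ∃ S : Finset ℕ, S.card ≤ 6000 * (2 ^ L * L) ∧ (∀ n ∈ S, 2 ≤ n) ∧
      ∑ n ∈ S, (1 / (n : ℚ)) = (a : ℚ) / b := by
  obtain ⟨v, hv⟩ : ∃ v, v = 2 ^ L := ⟨_, rfl⟩
  rw [← hv] at hb ⊢
  have hLv : 3 * L + 4 ≤ v := hv ▸ three_mul_add_four_le L hL
  obtain ⟨M, B, h, hM, H, -, -, hB, hMB, hh⟩ := levels L v hv hL (v - L - 3) (by omega)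
  obtain ⟨W, hW⟩ : ∃ W, W = 2 ^ (v - 3) := ⟨_, rfl⟩
  have eW : v * 2 ^ (v - L - 3) = W := by
    rw [hv, hW, ← pow_add, ← hv]
    congr 1
    omega
  have e8 : 2 ^ v = 8 * W := by
    rw [hW, show (8 : ℕ) = 2 ^ 3 by norm_num, ← pow_add]
    congr 1
    omega
  have e16 : 2 ^ (v + 1) = 16 * W := by rw [pow_succ, e8]; ring
  have e64 : 2 ^ (v + 3) = 64 * W := by rw [pow_add, e8]; ring
  rw [eW] at hB hMB
  rw [e16] at hMB
  rw [e8] at hb
  have hW1 : 1 ≤ W := hW ▸ Nat.one_le_two_pow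
  have hfin := final_fraction (δ := 2 ^ (38 * W)) (k := v + 3) H hM
    (by
      calc 2 = 2 ^ 1 := by norm_num
        _ ≤ 2 ^ (38 * W) := Nat.pow_le_pow_right (by norm_num) (by omega))
    (by
      have : 16 * W + 22 * W = 38 * W := by ring
      rwa [this] at hMB) ha hab
    (by
      calc b * (2 ^ (38 * W)) ^ 2 ≤ 2 ^ (8 * W) * (2 ^ (38 * W)) ^ 2 := Nat.mul_le_mul_right _ hb
        _ = 2 ^ (84 * W) := by rw [← pow_mul, ← pow_add]; congr 1; ring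
        _ ≤ B := hB)
    (by
      rw [e64]
      exact Nat.pow_le_pow_right (by norm_num) (by omega))
  obtain ⟨S, hS1, hS2, hS3⟩ := hfin
  refine ⟨S, hS1.trans ?_, hS2, hS3⟩
  have hF : FF L (v - L - 1) ≤ L * (2 * v) := by
    calc FF L (v - L - 1) ≤ FF L (2 ^ L) := FF_mono L (by omega)
      _ = L * 2 ^ (L + 1) := FF_two_pow L L (by omega)
      _ = L * (2 * v) := by rw [pow_succ, hv]; ring
  have hh' : h ≤ 84 * v + 1 + 1344 * (L * (2 * v)) := by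
    have := Nat.mul_le_mul_left 1344 hF
    omega
  have hvL : 4 * v ≤ v * L := by rw [mul_comm 4 v]; exact Nat.mul_le_mul_left _ hL
  have e : 1344 * (L * (2 * v)) = 2688 * (v * L) := by ring
  rw [e] at hh'
  have e' : 6000 * (v * L) = 5376 * (v * L) + 624 * (v * L) := by ring
  omega

end Vale.Agent.Lib.P012
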